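import Crest.Agent.N207.S.Rg.Seq
import Crest.Agent.N207.S.In.Defs

-- ▼ part N207/S/Rg/Near
section

/-!
Row 207 (S0320), REG: the differentiated equations (W), (K) at one point.
-/

set_option autoImplicit false

open Set Finset

namespace Crest.Agent.N207.S.Rg

noncomputable section

/-- Jets of `z = 1 - x k`. -/
def zS (x : ℝ) (K : ℕ → ℝ) (i : ℕ) : ℝ := cS 1 i + (-1) * lmul (idS x) K i

/-- Jets of `Z = 2 e x z`. -/
def ZS (e x : ℝ) (K : ℕ → ℝ) (i : ℕ) : ℝ := 2 * e * lmul (idS x) (zS x K) i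

/-- Shifted jets. -/
def sh (a : ℕ → ℝ) (i : ℕ) : ℝ := a (i + 1)

/-- Jets of the right side of (W). -/
def RW (e x : ℝ) (W K U : ℕ → ℝ) (i : ℕ) : ℝ :=
  lmul (ZS e x K) (sh (sh W)) i + (-1) * lmul (ZS e x K) (lmul (lmul (sh W) (sh W)) U) i +
    sh W i + 2 * e * lmul (zS x K) (sh W) i + cS (-1) i

/-- Jets of `k + x k'`. -/
def QS (x : ℝ) (K : ℕ → ℝ) (i : ℕ) : ℝ := K i + lmul (idS x) (sh K) i

/-- Jets of `P² / w²`. -/
def GS (W U : ℕ → ℝ) : ℕ → ℝ := lmul (lmul (sh W) (sh W)) (lmul U U)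

/-- Jets of `z² - 1`. -/
def DS (x : ℝ) (K : ℕ → ℝ) : ℕ → ℝ :=
  lmul (fun i => (-1) * lmul (idS x) K i) fun i => zS x K i + cS 1 i

/-- Jets of the right side of (K). -/
def RK (e x : ℝ) (W K U : ℕ → ℝ) (i : ℕ) : ℝ :=
  lmul (ZS e x K) (sh (sh K)) i + 4 * e * lmul (zS x K) (sh K) i +
    e * lmul (QS x K) (QS x K) i + sh K i + lmul K K i + 2 * e * GS W U i +
    2 * e * lmul (DS x K) (GS W U) i

theorem jets_eq {e t0 t1 xs : ℝ} {w wt k kt : ℕ → ℝ → ℝ → ℝ} (h : XSol e t0 t1 xs w wt k kt)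
    (hxs : 0 < xs) {t x : ℝ} (ht : t ∈ Icc t0 t1) (hx : x ∈ Icc 0 xs) :
    ∃ U : ℕ → ℝ, U 0 = (w 0 t x)⁻¹ ∧ (∀ i, 1 ≤ i → lmul (fun l => w l t x) U i = 0) ∧
      (∀ n, wt n t x = RW e x (fun l => w l t x) (fun l => k l t x) U n) ∧
      ∀ n, kt n t x = RK e x (fun l => w l t x) (fun l => k l t x) U n := by
  have hI : UniqueDiffOn ℝ (Icc 0 xs) := uniqueDiffOn_Icc hxs
  have cw : Chain (Icc 0 xs) fun j y => w j t y := fun j y hy => h.jw.dx j t y ht hy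
  have ck : Chain (Icc 0 xs) fun j y => k j t y := fun j y hy => h.jk.dx j t y ht hy
  have cwt : Chain (Icc 0 xs) fun j y => wt j t y := fun j y hy => h.jw.dv j t y ht hy
  have ckt : Chain (Icc 0 xs) fun j y => kt j t y := fun j y hy => h.jk.dv j t y ht hy
  obtain ⟨u, cu, hu0, hu⟩ := cw.inv hI fun y hy => (h.pos t y ht hy).ne'
  have cz : Chain (Icc 0 xs) fun j y => zS y (fun l => k l t y) j :=
    (chain_c 1).add ((chain_id.mul ck).smul (-1))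
  have cZ : Chain (Icc 0 xs) fun j y => ZS e y (fun l => k l t y) j :=
    (chain_id.mul cz).smul (2 * e)
  have cP : Chain (Icc 0 xs) fun j y => sh (fun l => w l t y) j := cw.shift
  have cPP := cP.mul cP
  have cQ : Chain (Icc 0 xs) fun j y => QS y (fun l => k l t y) j :=
    ck.add (chain_id.mul ck.shift)
  have cG : Chain (Icc 0 xs) fun j y => GS (fun l => w l t y) (fun l => u l y) j :=
    cPP.mul (cu.mul cu)
  have cD : Chain (Icc 0 xs) fun j y => DS y (fun l => k l t y) j :=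
    ((chain_id.mul ck).smul (-1)).mul (cz.add (chain_c 1))
  have cRW : Chain (Icc 0 xs) fun j y =>
      RW e y (fun l => w l t y) (fun l => k l t y) (fun l => u l y) j :=
    ((((cZ.mul cP.shift).add ((cZ.mul (cPP.mul cu)).smul (-1))).add cP).add
      ((cz.mul cP).smul (2 * e))).add (chain_c (-1))
  have cRK : Chain (Icc 0 xs) fun j y =>
      RK e y (fun l => w l t y) (fun l => k l t y) (fun l => u l y) j :=
    ((((((cZ.mul ck.shift.shift).add ((cz.mul ck.shift).smul (4 * e))).add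
      ((cQ.mul cQ).smul e)).add ck.shift).add (ck.mul ck)).add (cG.smul (2 * e))).add
      ((cD.mul cG).smul (2 * e))
  refine ⟨fun l => u l x, hu0 x, fun i hi => hu i hi x hx, fun n => ?_, fun n => ?_⟩
  · refine cwt.unique hI cRW (fun y hy => ?_) n x hx
    have := (h.pos t y ht hy).ne'
    simp only [h.eqW t y ht hy, rhsW, RW, ZS, zS, sh, lmul_zero, cS, idS, if_true, hu0]
    field_simp
    ring
  · refine ckt.unique hI cRK (fun y hy => ?_) n x hx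
    have := (h.pos t y ht hy).ne'
    simp only [h.eqK t y ht hy, rhsK, RK, ZS, zS, QS, GS, DS, sh, lmul_zero, cS, idS, if_true, hu0]
    field_simp
    ring

theorem zS_zero (x : ℝ) (K : ℕ → ℝ) : zS x K 0 = 1 - x * K 0 := by
  simp [zS, cS, idS, lmul_zero]; ring

theorem ZS_zero (e x : ℝ) (K : ℕ → ℝ) : ZS e x K 0 = 2 * e * x * (1 - x * K 0) := by
  simp [ZS, lmul_zero, zS_zero, idS]; ring

theorem ZS_one (e x : ℝ) (K : ℕ → ℝ) :
    ZS e x K 1 = 2 * e * (1 - 2 * (x * K 0) - x ^ 2 * K 1) := by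
  simp only [ZS, lmul_one, zS, idS, cS, lmul_zero]
  norm_num
  ring_nf
  simp

/-- Bounds for `x k`, `z`, `Z`. -/
theorem top_z {e ρ x C c : ℝ} {n : ℕ} {K : ℕ → ℝ} (hn : 1 ≤ n) (he : 0 < e) (he1 : e ≤ 1)
    (hρ : 0 < ρ) (hC : 0 ≤ C) (h0 : 0 ≤ x) (hx : x ≤ 2 * ρ) (hK : Top ρ (e * C / ρ) n K c) :
    Top ρ (e * (2 * 2 ^ n * C)) n (fun i => (-1) * lmul (idS x) K i) (-(x * c)) ∧
    Top ρ (1 + 2 * 2 ^ n * C) n (zS x K) (-(x * c)) ∧
    Top ρ (e * ρ * (4 * 2 ^ n * (1 + 2 * 2 ^ n * C))) n (ZS e x K) (-(2 * e * x ^ 2 * c)) := by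
  have hX := top_id hρ.le h0 hx n
  have h1 : Top ρ (e * (2 * 2 ^ n * C)) n (fun i => (-1) * lmul (idS x) K i) (-(x * c)) :=
    (((hX.mul hρ.le hn hK).smul (-1)).congr (by simp [idS])).mono
      (le_of_eq (by simp; field_simp))
  have h2 : Top ρ (1 + 2 * 2 ^ n * C) n (zS x K) (-(x * c)) := by
    refine (((top_c 1 n).add hρ.le h1).congr (by simp)).mono ?_
    have : e * (2 * 2 ^ n * C) ≤ 1 * (2 * 2 ^ n * C) :=
      mul_le_mul_of_nonneg_right he1 (by positivity)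
    simp only [abs_one]; linarith
  refine ⟨h1, h2, (((hX.mul hρ.le hn h2).smul (2 * e)).congr (by simp [idS]; ring)).mono ?_⟩
  rw [abs_of_pos (by positivity)]
  exact le_of_eq (by ring)

theorem top_inv {ρ C : ℝ} {n : ℕ} {W U : ℕ → ℝ} (hρ : 0 < ρ) (hC : 1 ≤ C) (hW : W 0 = ρ)
    (hU : U 0 = ρ⁻¹) (hWU : ∀ i, 1 ≤ i → lmul W U i = 0)
    (hP : ∀ i, i < n → |W (i + 1)| * ρ ^ i ≤ C) : Top ρ ((2 ^ n * C) ^ n / ρ) n U 0 := by
  have hA : (1 : ℝ) ≤ 2 ^ n * C := one_le_mul_of_one_le_of_one_le (one_le_pow₀ (by norm_num)) hC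
  refine Top.of_le fun i hi => (inv_bd hρ hC hW hU n (fun l hl _ => hWU l hl) ?_ i hi).trans ?_
  · intro l hl
    rcases l with _ | l
    · simp [hW, abs_of_pos hρ]; nlinarith
    · rw [pow_succ, ← mul_assoc]
      exact mul_le_mul_of_nonneg_right (hP l (by omega)) hρ.le
  · rw [div_eq_mul_inv]
    exact mul_le_mul_of_nonneg_right (pow_le_pow_right₀ hA hi) (by positivity)

/-- The differentiated equation (W). -/
theorem eqW_top (j : ℕ) (hj : 1 ≤ j) (C : ℝ) (hC : 1 ≤ C) : ∃ A : ℝ, 0 ≤ A ∧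
    ∀ (e ρ x : ℝ) (W K U : ℕ → ℝ), 0 < e → e ≤ 1 → 0 < ρ → 0 ≤ x → x ≤ 2 * ρ → W 0 = ρ →
      U 0 = ρ⁻¹ → (∀ i, 1 ≤ i → lmul W U i = 0) → (∀ i, i ≤ j → |W (i + 1)| * ρ ^ i ≤ C) →
      (∀ i, i ≤ j → |K i| * ρ ^ i ≤ e * C / ρ) →
      |RW e x W K U (j + 1) - (ZS e x K 0 * W (j + 3) +
        ((j + 1) * ZS e x K 1 + 1 + 2 * e * (1 - x * K 0) - 2 * ZS e x K 0 * W 1 / ρ) * W (j + 2) +
        2 * e * x * (x * W 1 ^ 2 / ρ - x * W 2 - W 1) * K (j + 1))| * ρ ^ (j + 1) ≤ e * A := by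
  set n := j + 1 with hn
  set c : ℝ := 2 ^ n with hc
  have hc0 : 0 < c := by positivity
  refine ⟨c * (4 * c * (1 + 2 * c * C)) * C +
    c * (4 * c * (1 + 2 * c * C)) * (c * (c * (C * C)) * (c * C) ^ n) +
    2 * (c * ((1 + 2 * c * C) * C)), by positivity, ?_⟩
  intro e ρ x W K U he he1 hρ h0 hx hW hU hWU hP hK
  have n1 : 1 ≤ n := by omega
  have tK : Top ρ (e * C / ρ) n K (K n) :=
    Top.of_low (by positivity) fun i hi => hK i (by omega)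
  obtain ⟨-, tz, tZ⟩ := top_z n1 he he1 hρ (by linarith) h0 hx tK
  have tP : Top ρ C n (sh W) (W (n + 1)) :=
    Top.of_low (a := sh W) (by linarith) fun i hi => hP i (by omega)
  have tU := top_inv (n := n) hρ hC hW hU hWU fun i hi => hP i (by omega)
  have a1 := lmul_two (b := sh (sh W)) (M' := C / ρ) hρ.le (by omega) (by positivity) tZ
    (fun i hi => by
      rw [le_div_iff₀ hρ, mul_assoc, ← pow_succ]
      exact hP (i + 1) (by omega))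
  have a2 := (tZ.mul hρ.le n1 ((tP.mul hρ.le n1 tP).mul hρ.le n1 tU)).top
  have a3 := (tz.mul hρ.le n1 tP).top
  rw [← hc] at a1 a2 a3
  simp only [lmul_zero, sh, zS_zero, hU] at a1 a2 a3
  set T1 := lmul (ZS e x K) (sh (sh W)) n - (ZS e x K 0 * W (n + 1 + 1) +
    n * (ZS e x K 1 * W (n - 1 + 1 + 1)) + -(2 * e * x ^ 2 * K n) * W (0 + 1 + 1)) with hT1
  set T2 := lmul (ZS e x K) (lmul (lmul (sh W) (sh W)) U) n -
    (ZS e x K 0 * (W (0 + 1) * W (0 + 1) * 0 + (W (0 + 1) * W (n + 1) + W (n + 1) * W (0 + 1)) * ρ⁻¹) +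
      -(2 * e * x ^ 2 * K n) * (W (0 + 1) * W (0 + 1) * ρ⁻¹)) with hT2
  set T3 := lmul (zS x K) (sh W) n - ((1 - x * K 0) * W (n + 1) + -(x * K n) * W (0 + 1)) with hT3
  have e1 : RW e x W K U n - (ZS e x K 0 * W (j + 3) +
      ((j + 1) * ZS e x K 1 + 1 + 2 * e * (1 - x * K 0) - 2 * ZS e x K 0 * W 1 / ρ) * W (j + 2) +
      2 * e * x * (x * W 1 ^ 2 / ρ - x * W 2 - W 1) * K n) = T1 + (-1) * T2 + 2 * e * T3 := by
    simp only [hT1, hT2, hT3, RW, cS, sh, hn, Nat.add_sub_cancel]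
    push_cast
    ring
  rw [e1]
  have b1 : |T1 + (-1) * T2 + 2 * e * T3| ≤ |T1| + |T2| + 2 * e * |T3| := by
    refine (abs_add_le _ _).trans (add_le_add ((abs_add_le _ _).trans ?_) ?_)
    · simp
    · rw [abs_mul, abs_of_pos (by positivity : 0 < 2 * e)]
  have hρn : 0 ≤ ρ ^ n := by positivity
  refine (mul_le_mul_of_nonneg_right b1 hρn).trans ?_
  have a3' := mul_le_mul_of_nonneg_left a3 (by positivity : 0 ≤ 2 * e)
  have q1 : c * (e * ρ * (4 * c * (1 + 2 * c * C)) * (C / ρ)) =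
      e * (c * (4 * c * (1 + 2 * c * C)) * C) := by field_simp
  have q2 : c * (e * ρ * (4 * c * (1 + 2 * c * C)) * (c * (c * (C * C) * ((c * C) ^ n / ρ)))) =
      e * (c * (4 * c * (1 + 2 * c * C)) * (c * (c * (C * C)) * (c * C) ^ n)) := by field_simp
  rw [q1] at a1
  rw [q2] at a2
  nlinarith

set_option maxHeartbeats 800000 in
/-- The differentiated equation (K), `j ≥ 1`. -/
theorem eqK_top (j : ℕ) (hj : 1 ≤ j) (C' : ℝ) (hC' : 1 ≤ C') : ∃ A' : ℝ, 0 ≤ A' ∧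
    ∀ C : ℝ, 1 ≤ C → ∃ A : ℝ, 0 ≤ A ∧
    ∀ (e ρ x : ℝ) (W K U : ℕ → ℝ), 0 < e → e ≤ 1 → 0 < ρ → 0 ≤ x → x ≤ 2 * ρ → W 0 = ρ →
      U 0 = ρ⁻¹ → (∀ i, 1 ≤ i → lmul W U i = 0) → (∀ i, i < j → |W (i + 1)| * ρ ^ i ≤ C') →
      (∀ i, i ≤ j → |W (i + 1)| * ρ ^ i ≤ C) → (∀ i, i ≤ j → |K i| * ρ ^ i ≤ e * C / ρ) →
      |RK e x W K U j - (ZS e x K 0 * K (j + 2) +
        (j * ZS e x K 1 + 4 * e * (1 - x * K 0) + 2 * e * x * (K 0 + x * K 1) + 1) * K (j + 1) +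
        4 * e * W 1 / ρ ^ 2 * W (j + 1))| * ρ ^ j ≤ (e * A' + e ^ 2 * A) / ρ ^ 2 := by
  set c : ℝ := 2 ^ j with hc
  have hc0 : 0 < c := by positivity
  refine ⟨2 * (c * (c * (C' * C') * (c * ((c * C') ^ j * (c * C') ^ j)))), by positivity,
    fun C hC => ⟨c * (4 * c * (1 + 2 * c * C)) * C + 4 * (c * ((1 + 2 * c * C) * C)) +
      c * (C * (1 + 2 * c)) ^ 2 + c * (C * C) +
      2 * (c * (c * (2 * c * C * (1 + 2 * c * C + 1)) *
        (c * (c * (C * C) * (c * ((c * C') ^ j * (c * C') ^ j)))))), by positivity, ?_⟩⟩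
  intro e ρ x W K U he he1 hρ h0 hx hW hU hWU hP' hP hK
  have tK : Top ρ (e * C / ρ) j K 0 := Top.of_le hK
  have hK1 : ∀ i, i + 1 ≤ j → |K (i + 1)| * ρ ^ i ≤ e * C / ρ / ρ := fun i hi => by
    rw [le_div_iff₀ hρ, mul_assoc, ← pow_succ]; exact hK (i + 1) hi
  have tK1 : Top ρ (e * C / ρ / ρ) j (sh K) (K (j + 1)) :=
    Top.of_low (a := sh K) (by positivity) fun i hi => hK1 i hi
  obtain ⟨tx, tz, tZ⟩ := top_z hj he he1 hρ (by linarith) h0 hx tK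
  simp only [mul_zero, neg_zero] at tx tz tZ
  have tP' : Top ρ C' j (sh W) (W (j + 1)) := Top.of_low (a := sh W) (by linarith) hP'
  have tP : Top ρ C j (sh W) 0 := Top.of_le hP
  have tU := top_inv (n := j) hρ hC' hW hU hWU hP'
  have tUU := tU.mul hρ.le hj tU
  have a1 := lmul_two0 (b := sh (sh K)) (M' := e * C / ρ / ρ / ρ) hρ.le (by positivity) tZ
    (fun i hi => by
      rw [le_div_iff₀ hρ, mul_assoc, ← pow_succ]
      exact hK1 (i + 1) (by omega))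
  have a2 := (tz.mul hρ.le hj tK1).top
  have tQ : Top ρ (e * C * (1 + 2 * c) / ρ) j (QS x K) (x * K (j + 1)) :=
    ((tK.add hρ.le ((top_id hρ.le h0 hx j).mul hρ.le hj tK1)).congr (by simp [idS])).mono
      (le_of_eq (by rw [← hc]; field_simp))
  have a3 := (tQ.mul hρ.le hj tQ).top
  have a4 := (tK.mul hρ.le hj tK).top
  have a5 := ((tP'.mul hρ.le hj tP').mul hρ.le hj tUU).top
  have a6 := ((tx.mul hρ.le hj (tz.add hρ.le (top_c 1 j))).mul hρ.le hj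
    ((tP.mul hρ.le hj tP).mul hρ.le hj tUU)).top
  rw [← hc] at a1 a2 a3 a4 a5 a6
  simp only [lmul_zero, zS_zero, hU, mul_zero, zero_mul, add_zero, sub_zero, abs_one] at a1 a2 a3 a4 a5 a6
  have hj1 : j - 1 + 1 + 1 = j + 1 := by omega
  set T1 := lmul (ZS e x K) (sh (sh K)) j -
    (ZS e x K 0 * sh (sh K) j + j * (ZS e x K 1 * sh (sh K) (j - 1))) with hT1
  set T2 := lmul (zS x K) (sh K) j - (1 - x * K 0) * K (j + 1) with hT2
  set T3 := lmul (QS x K) (QS x K) j -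
    (QS x K 0 * (x * K (j + 1)) + x * K (j + 1) * QS x K 0) with hT3
  set T4 := lmul K K j with hT4
  set T5 := lmul (lmul (sh W) (sh W)) (lmul U U) j -
    (0 + (sh W 0 * W (j + 1) + W (j + 1) * sh W 0) * (ρ⁻¹ * ρ⁻¹)) with hT5
  set T6 := lmul (DS x K) (GS W U) j with hT6
  have e1 : RK e x W K U j - (ZS e x K 0 * K (j + 2) +
      (j * ZS e x K 1 + 4 * e * (1 - x * K 0) + 2 * e * x * (K 0 + x * K 1) + 1) * K (j + 1) +
      4 * e * W 1 / ρ ^ 2 * W (j + 1)) =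
      T1 + 4 * e * T2 + e * T3 + T4 + 2 * e * T5 + 2 * e * T6 := by
    simp only [hT1, hT2, hT3, hT4, hT5, hT6, RK, GS, sh, hj1, QS, lmul_zero, idS, if_true]
    field_simp
    ring
  rw [e1]
  have b1 : |T1 + 4 * e * T2 + e * T3 + T4 + 2 * e * T5 + 2 * e * T6| ≤
      |T1| + 4 * e * |T2| + e * |T3| + |T4| + 2 * e * |T5| + 2 * e * |T6| := by
    have f1 : |4 * e * T2| = 4 * e * |T2| := by rw [abs_mul, abs_of_pos (by positivity)]
    have f2 : |e * T3| = e * |T3| := by rw [abs_mul, abs_of_pos he]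
    have f3 : |2 * e * T5| = 2 * e * |T5| := by rw [abs_mul, abs_of_pos (by positivity)]
    have f4 : |2 * e * T6| = 2 * e * |T6| := by rw [abs_mul, abs_of_pos (by positivity)]
    rw [← f1, ← f2, ← f3, ← f4]
    refine (abs_add_le _ _).trans (add_le_add_left ?_ _)
    refine (abs_add_le _ _).trans (add_le_add_left ?_ _)
    refine (abs_add_le _ _).trans (add_le_add_left ?_ _)
    refine (abs_add_le _ _).trans (add_le_add_left ?_ _)
    exact abs_add_le _ _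
  have hρn : 0 ≤ ρ ^ j := by positivity
  refine (mul_le_mul_of_nonneg_right b1 hρn).trans ?_
  have a2' := mul_le_mul_of_nonneg_left a2 (by positivity : 0 ≤ 4 * e)
  have a3' := mul_le_mul_of_nonneg_left a3 he.le
  have a5' := mul_le_mul_of_nonneg_left a5 (by positivity : 0 ≤ 2 * e)
  have a6' : 2 * e * (|T6| * ρ ^ j) ≤ _ := mul_le_mul_of_nonneg_left a6 (by positivity : 0 ≤ 2 * e)
  have a3'' : e * (c * (e * C * (1 + 2 * c) / ρ * (e * C * (1 + 2 * c) / ρ))) ≤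
      1 * (c * (e * C * (1 + 2 * c) / ρ * (e * C * (1 + 2 * c) / ρ))) :=
    mul_le_mul_of_nonneg_right he1 (by positivity)
  have key : c * (e * ρ * (4 * c * (1 + 2 * c * C)) * (e * C / ρ / ρ / ρ)) +
      4 * e * (c * ((1 + 2 * c * C) * (e * C / ρ / ρ))) +
      1 * (c * (e * C * (1 + 2 * c) / ρ * (e * C * (1 + 2 * c) / ρ))) +
      c * (e * C / ρ * (e * C / ρ)) +
      2 * e * (c * (c * (C' * C') * (c * ((c * C') ^ j / ρ * ((c * C') ^ j / ρ))))) +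
      2 * e * (c * (c * (e * (2 * c * C) * (1 + 2 * c * C + 1)) *
        (c * (c * (C * C) * (c * ((c * C') ^ j / ρ * ((c * C') ^ j / ρ))))))) =
      (e * (2 * (c * (c * (C' * C') * (c * ((c * C') ^ j * (c * C') ^ j))))) +
      e ^ 2 * (c * (4 * c * (1 + 2 * c * C)) * C + 4 * (c * ((1 + 2 * c * C) * C)) +
      c * (C * (1 + 2 * c)) ^ 2 + c * (C * C) +
      2 * (c * (c * (2 * c * C * (1 + 2 * c * C + 1)) *
        (c * (c * (C * C) * (c * ((c * C') ^ j * (c * C') ^ j)))))))) / ρ ^ 2 := by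
    field_simp
    ring
  rw [← key]
  have e2 : (|T1| + 4 * e * |T2| + e * |T3| + |T4| + 2 * e * |T5| + 2 * e * |T6|) * ρ ^ j =
      |T1| * ρ ^ j + 4 * e * (|T2| * ρ ^ j) + e * (|T3| * ρ ^ j) + |T4| * ρ ^ j +
        2 * e * (|T5| * ρ ^ j) + 2 * e * (|T6| * ρ ^ j) := by ring
  rw [e2]
  exact add_le_add (add_le_add (add_le_add (add_le_add (add_le_add a1 a2') (a3'.trans a3'')) a4)
    a5') a6'

end

end Crest.Agent.N207.S.Rg
end

-- ▼ part N207/S/Rg/Alg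
section

/-!
Row 207 (S0320), REG: weighted jets and the pointwise inequality near the tip.
-/

set_option autoImplicit false

open Set

namespace Crest.Agent.N207.S.Rg

noncomputable section

/-- `w^a f`. -/
def g0 (a : ℕ) (w0 f0 : ℝ) : ℝ := w0 ^ a * f0
/-- first derivative of `w^a f`. -/
def g1 (a : ℕ) (w0 w1 f0 f1 : ℝ) : ℝ := w0 ^ a * f1 + a * w0 ^ a * w1 / w0 * f0
/-- second derivative of `w^a f`. -/
def g2 (a : ℕ) (w0 w1 w2 f0 f1 f2 : ℝ) : ℝ :=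
  w0 ^ a * f2 + 2 * a * w0 ^ a * w1 / w0 * f1 +
    (a * w0 ^ a * w2 / w0 + a * (a - 1) * w0 ^ a * w1 ^ 2 / w0 ^ 2) * f0

theorem hd_pow {w : ℝ → ℝ} {w1 x : ℝ} {s : Set ℝ} (a : ℕ) (hw : HasDerivWithinAt w w1 s x)
    (h0 : w x ≠ 0) : HasDerivWithinAt (fun y => w y ^ a) (a * w x ^ a * w1 / w x) s x := by
  refine (hw.fun_pow a).congr_deriv ?_
  rcases a with _ | a
  · simp
  · simp only [Nat.add_sub_cancel]; field_simp; ring

theorem hd_g0 {w f : ℝ → ℝ} {w1 f1 x : ℝ} {s : Set ℝ} (a : ℕ) (hw : HasDerivWithinAt w w1 s x)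
    (hf : HasDerivWithinAt f f1 s x) (h0 : w x ≠ 0) :
    HasDerivWithinAt (fun y => g0 a (w y) (f y)) (g1 a (w x) w1 (f x) f1) s x := by
  refine ((hd_pow a hw h0).fun_mul hf).congr_deriv ?_
  unfold g1; ring

theorem hd_g1 {w0 w1 f0 f1 : ℝ → ℝ} {w2 f2 x : ℝ} {s : Set ℝ} (a : ℕ)
    (hw : HasDerivWithinAt w0 (w1 x) s x) (hw1 : HasDerivWithinAt w1 w2 s x)
    (hf : HasDerivWithinAt f0 (f1 x) s x) (hf1 : HasDerivWithinAt f1 f2 s x) (h0 : w0 x ≠ 0) :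
    HasDerivWithinAt (fun y => g1 a (w0 y) (w1 y) (f0 y) (f1 y))
      (g2 a (w0 x) (w1 x) w2 (f0 x) (f1 x) f2) s x := by
  have hp := hd_pow a hw h0
  refine ((hp.fun_mul hf1).fun_add
    (((((hp.const_mul (a : ℝ)).fun_mul hw1).fun_div hw h0)).fun_mul hf)).congr_deriv ?_
  unfold g2; field_simp; ring

theorem wt_form (a : ℕ) {ρ w1 w2 wt f0 f1 f2 ft Z b β r : ℝ} (hρ : ρ ≠ 0)
    (hw : wt = Z * w2 + β * w1 - Z * w1 ^ 2 / ρ - 1) (hf : ft = Z * f2 + b * f1 + r) :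
    ρ * g1 a ρ wt f0 ft = ρ * Z * g2 a ρ w1 w2 f0 f1 f2 +
      (ρ * b - 2 * a * (Z * w1)) * g1 a ρ w1 f0 f1 - a * g0 a ρ f0 + ρ ^ (a + 1) * r +
      g0 a ρ f0 * (a * ((β - b) * w1) + a * a * (Z * w1 ^ 2 / ρ)) := by
  subst hw hf
  unfold g0 g1 g2
  field_simp
  ring

theorem ab_mul {a b A B : ℝ} (ha : |a| ≤ A) (hb : |b| ≤ B) : |a * b| ≤ A * B := by
  rw [abs_mul]; exact mul_le_mul ha hb (abs_nonneg _) ((abs_nonneg _).trans ha)

theorem ab_add {a b A B : ℝ} (ha : |a| ≤ A) (hb : |b| ≤ B) : |a + b| ≤ A + B :=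
  (abs_add_le _ _).trans (add_le_add ha hb)

theorem ab_sub {a b A B : ℝ} (ha : |a| ≤ A) (hb : |b| ≤ B) : |a - b| ≤ A + B :=
  (abs_sub _ _).trans (add_le_add ha hb)

theorem ab_nn {a : ℝ} (ha : 0 ≤ a) : |a| ≤ a := (abs_of_nonneg ha).le

theorem two_mul_le {u v d y θ : ℝ} (hθ : 0 < θ) (hd : |d| ≤ y) :
    2 * u * (d * v) ≤ θ * v ^ 2 + y ^ 2 / θ * u ^ 2 := by
  have h1 : d ^ 2 ≤ y ^ 2 := by
    rw [← sq_abs d]; exact pow_le_pow_left₀ (abs_nonneg _) hd 2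
  have h2 : 2 * u * (d * v) ≤ θ * v ^ 2 + d ^ 2 / θ * u ^ 2 := by
    have : 0 ≤ (θ * v - d * u) ^ 2 / θ := by positivity
    have e : (θ * v - d * u) ^ 2 / θ = θ * v ^ 2 + d ^ 2 / θ * u ^ 2 - 2 * u * (d * v) := by
      field_simp; ring
    linarith
  have h3 : d ^ 2 / θ * u ^ 2 ≤ y ^ 2 / θ * u ^ 2 := by gcongr
  linarith

theorem two_mul_le' {u v d e A x κ : ℝ} (he : 0 < e) (hκ : 0 < κ) (hx : 0 ≤ x)
    (hd : |d| ≤ e * A * x) :
    2 * u * (d * v) ≤ κ * (e * x ^ 2) * v ^ 2 + e * (A ^ 2 / κ) * u ^ 2 := by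
  rcases hx.eq_or_lt with h | h
  · subst h
    have : d = 0 := abs_nonpos_iff.1 (by simpa using hd)
    subst this
    have : 0 ≤ e * (A ^ 2 / κ) * u ^ 2 := by positivity
    simpa using this
  · have := two_mul_le (u := u) (v := v) (θ := κ * (e * x ^ 2)) (by positivity) hd
    have e1 : (e * A * x) ^ 2 / (κ * (e * x ^ 2)) = e * (A ^ 2 / κ) := by field_simp
    rwa [e1] at this

theorem amgm8 (U V : ℝ) : |U| * |V| / 4 ≤ U ^ 2 + V ^ 2 / 64 := by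
  nlinarith [sq_nonneg (|U| - |V| / 8), sq_abs U, sq_abs V]

/-- The algebraic heart of REG near the tip. -/
theorem core_near {U U1 U2 Ut V V1 V2 Vt Z s ρ x e A A' C P c j dU gU rU dV rV : ℝ}
    (he : 0 < e) (hx : 0 ≤ x) (hZ : e * x ^ 2 ≤ 2 * (ρ * Z)) (hP : |P| ≤ 2) (hA : 0 ≤ A)
    (hUC : |c * U| ≤ C) (hVC : |V| ≤ C) (hc : c = 0 ∧ 0 ≤ j ∨ c = 1 ∧ 1 ≤ j)
    (hU : c * (ρ * Ut) = c * (ρ * Z * U2 + (ρ * s + dU) * U1 + gU * V1 - j * U + rU))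
    (hV : ρ * Vt = ρ * Z * V2 + (ρ * s + dV) * V1 - (j + 1) * V + 4 * P * (c * U) + rV)
    (h1 : |dU| ≤ e * A * x) (h2 : |gU| ≤ e * A * x) (h3 : |rU| ≤ e * A)
    (h4 : |dV| ≤ e * A * x) (h5 : |rV| ≤ A' + e * A) :
    ρ * ((2 * c * U * Ut + V * Vt / 32) -
        Z * (2 * c * (U1 ^ 2 + U * U2) + (V1 ^ 2 + V * V2) / 32) -
        s * (2 * c * U * U1 + V * V1 / 32)) ≤
      -(c * U ^ 2 + V ^ 2 / 64) + A' ^ 2 / 64 + e * (131 * (A ^ 2 * C ^ 2) + 3 * (A * C)) := by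
  have hC : 0 ≤ C := (abs_nonneg _).trans hVC
  have hV2 : V ^ 2 ≤ C ^ 2 := by rw [← sq_abs V]; exact pow_le_pow_left₀ (abs_nonneg _) hVC 2
  have b3 := two_mul_le' (u := V) (v := V1) (κ := 1 / 2) he (by norm_num) hx h4
  have b3' : e * (A ^ 2 / (1 / 2)) * V ^ 2 ≤ e * (A ^ 2 / (1 / 2)) * C ^ 2 := by gcongr
  have b5 : V * rV ≤ |V| * A' + e * (A * C) := by
    have : V * rV ≤ |V| * (A' + e * A) := (le_abs_self _).trans (ab_mul le_rfl h5)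
    have h6 : |V| * (e * A) ≤ C * (e * A) := mul_le_mul_of_nonneg_right hVC (by positivity)
    nlinarith
  have b6 : 2 * (|V| * A') ≤ V ^ 2 + A' ^ 2 := by nlinarith [sq_nonneg (|V| - A'), sq_abs V]
  have z1 : e * x ^ 2 * V1 ^ 2 ≤ 2 * (ρ * Z) * V1 ^ 2 := by gcongr
  have p1 : 0 ≤ e * (A ^ 2 * C ^ 2) := by positivity
  have p2 : 0 ≤ e * (A * C) := by positivity
  rcases hc with ⟨rfl, hj⟩ | ⟨rfl, hj⟩
  · have e1 : ρ * ((2 * 0 * U * Ut + V * Vt / 32) -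
        Z * (2 * 0 * (U1 ^ 2 + U * U2) + (V1 ^ 2 + V * V2) / 32) -
        s * (2 * 0 * U * U1 + V * V1 / 32)) =
        (2 * V * (dV * V1) - 2 * (j + 1) * V ^ 2 + 2 * (V * rV) - 2 * (ρ * Z) * V1 ^ 2) / 64 := by
      linear_combination V / 32 * hV
    rw [e1]
    have : 0 ≤ j * V ^ 2 := by positivity
    have : 0 ≤ e * x ^ 2 * V1 ^ 2 := by positivity
    nlinarith
  · simp only [one_mul] at hU hV hUC ⊢
    have hU2 : U ^ 2 ≤ C ^ 2 := by rw [← sq_abs U]; exact pow_le_pow_left₀ (abs_nonneg _) hUC 2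
    have e1 : ρ * ((2 * 1 * U * Ut + V * Vt / 32) -
        Z * (2 * 1 * (U1 ^ 2 + U * U2) + (V1 ^ 2 + V * V2) / 32) -
        s * (2 * 1 * U * U1 + V * V1 / 32)) =
        2 * U * (dU * U1) + 2 * U * (gU * V1) - 2 * j * U ^ 2 + 2 * (U * rU) -
          2 * (ρ * Z) * U1 ^ 2 +
        (2 * V * (dV * V1) - 2 * (j + 1) * V ^ 2 + 8 * (P * (U * V)) + 2 * (V * rV) -
          2 * (ρ * Z) * V1 ^ 2) / 64 := by
      linear_combination 2 * U * hU + V / 32 * hV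
    rw [e1]
    have b1 := two_mul_le' (u := U) (v := U1) (κ := 1) he one_pos hx h1
    have b2 := two_mul_le' (u := U) (v := V1) (κ := 1 / 128) he (by norm_num) hx h2
    have b1' : e * (A ^ 2 / 1) * U ^ 2 ≤ e * (A ^ 2 / 1) * C ^ 2 := by gcongr
    have b2' : e * (A ^ 2 / (1 / 128)) * U ^ 2 ≤ e * (A ^ 2 / (1 / 128)) * C ^ 2 := by gcongr
    have b4 : U * rU ≤ C * (e * A) := (le_abs_self _).trans (ab_mul hUC h3)
    have b7 : P * (U * V) ≤ 2 * (|U| * |V|) :=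
      (le_abs_self _).trans (ab_mul hP (abs_mul U V).le)
    have b8 := amgm8 U V
    have z2 : e * x ^ 2 * U1 ^ 2 ≤ 2 * (ρ * Z) * U1 ^ 2 := by gcongr
    have j1 : U ^ 2 ≤ j * U ^ 2 := le_mul_of_one_le_left (sq_nonneg _) hj
    have j2 : V ^ 2 ≤ j * V ^ 2 := le_mul_of_one_le_left (sq_nonneg _) hj
    linarith [sq_nonneg V]

/-- The algebraic heart of REG away from the tip. -/
theorem core_far {U U1 U2 Ut V V1 V2 Vt Z s μ K c rU rV : ℝ}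
    (hK : 0 < K) (hμ : 0 ≤ μ) (hμ1 : μ ≤ 1) (hZ : μ ≤ K * Z) (hUC : |U| ≤ K) (hVC : |V| ≤ K)
    (hc : c = 0 ∧ |U1| ≤ K ∨ c = 1)
    (hU : Ut = Z * U2 + s * U1 + rU) (hV : Vt = Z * V2 + s * V1 + rV)
    (h1 : |rU| ≤ K * (1 + μ * (|U1| + |V1|))) (h2 : |rV| ≤ K * (1 + μ * (|U1| + |V1|))) :
    (2 * c * U * Ut + V * Vt / 32) -
        Z * (2 * c * (U1 ^ 2 + U * U2) + (V1 ^ 2 + V * V2) / 32) -
        s * (2 * c * U * U1 + V * V1 / 32) ≤ 3 * K ^ 2 + K ^ 3 + 100 * K ^ 5 := by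
  have hZ0 : μ / K ≤ Z := by rw [div_le_iff₀ hK]; linarith
  have a1 : U * rU ≤ K * (K * (1 + μ * (|U1| + |V1|))) := (le_abs_self _).trans (ab_mul hUC h1)
  have a2 : V * rV ≤ K * (K * (1 + μ * (|U1| + |V1|))) := (le_abs_self _).trans (ab_mul hVC h2)
  have z1 : μ / K * V1 ^ 2 ≤ Z * V1 ^ 2 := by gcongr
  have z2 : μ / K * U1 ^ 2 ≤ Z * U1 ^ 2 := by gcongr
  have k1 : ∀ y θ : ℝ, 0 < θ → 3 * K ^ 2 * (μ * |y|) ≤ θ * (μ / K * y ^ 2) + 9 / (4 * θ) * K ^ 5 := by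
    intro y θ hθ
    have h3 : 3 * K ^ 2 * |y| ≤ θ / K * y ^ 2 + 9 / (4 * θ) * K ^ 5 := by
      have : 0 ≤ (2 * θ * |y| - 3 * K ^ 3) ^ 2 / (4 * θ * K) := by positivity
      have e : (2 * θ * |y| - 3 * K ^ 3) ^ 2 / (4 * θ * K) =
          θ / K * |y| ^ 2 + 9 / (4 * θ) * K ^ 5 - 3 * K ^ 2 * |y| := by field_simp; ring
      rw [e, sq_abs] at this
      linarith
    have h4 := mul_le_mul_of_nonneg_left h3 hμ
    have h5 : μ * (9 / (4 * θ) * K ^ 5) ≤ 1 * (9 / (4 * θ) * K ^ 5) := by gcongr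
    have e2 : μ * (θ / K * y ^ 2 + 9 / (4 * θ) * K ^ 5) =
        θ * (μ / K * y ^ 2) + μ * (9 / (4 * θ) * K ^ 5) := by ring
    nlinarith
  have k2 := k1 V1 (1 / 32) (by norm_num)
  have p1 : 0 ≤ K ^ 2 * (μ * |V1|) := by positivity
  have p2 : 0 ≤ K ^ 2 * (μ * |U1|) := by positivity
  have p3 : 0 ≤ K ^ 5 := by positivity
  have p4 : 0 ≤ K ^ 2 := by positivity
  have p5 : 0 ≤ K ^ 3 := by positivity
  rcases hc with ⟨rfl, hU1⟩ | rfl
  · have e1 : (2 * 0 * U * Ut + V * Vt / 32) -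
        Z * (2 * 0 * (U1 ^ 2 + U * U2) + (V1 ^ 2 + V * V2) / 32) -
        s * (2 * 0 * U * U1 + V * V1 / 32) = V * rV / 32 - Z * V1 ^ 2 / 32 := by
      rw [hV]; ring
    rw [e1]
    have : K ^ 2 * (μ * |U1|) ≤ K ^ 2 * (1 * K) := by gcongr
    nlinarith
  · have e1 : (2 * 1 * U * Ut + V * Vt / 32) -
        Z * (2 * 1 * (U1 ^ 2 + U * U2) + (V1 ^ 2 + V * V2) / 32) -
        s * (2 * 1 * U * U1 + V * V1 / 32) =
        2 * (U * rU) + V * rV / 32 - 2 * (Z * U1 ^ 2) - Z * V1 ^ 2 / 32 := by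
      rw [hU, hV]; ring
    rw [e1]
    have k3 := k1 U1 2 (by norm_num)
    nlinarith

end

end Crest.Agent.N207.S.Rg
end

-- ▼ part N207/S/Rg/Pt

/-!
Row 207 (S0320), REG: the pointwise inequalities for the Bernstein functions.
-/

set_option autoImplicit false

open Set

namespace Crest.Agent.N207.S.Rg

noncomputable section

/-- The coefficient of the `η` part. -/
def cc (j : ℕ) : ℝ := if j = 0 then 0 else 1

/-- `Φ = c u² + v²/64`. -/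
def Ph (c u v : ℝ) : ℝ := c * u ^ 2 + v ^ 2 / 64
/-- First derivative of `Φ`. -/
def Ph1 (c u u1 v v1 : ℝ) : ℝ := 2 * c * u * u1 + v * v1 / 32
/-- Second derivative of `Φ`. -/
def Ph2 (c u u1 u2 v v1 v2 : ℝ) : ℝ := 2 * c * (u1 ^ 2 + u * u2) + (v1 ^ 2 + v * v2) / 32

/-- `Φ_j`. -/
def PhJ (j : ℕ) (e w : ℝ) (H K : ℕ → ℝ) : ℝ := Ph (cc j) (g0 j w (H (j + 1))) (g0 (j + 1) w (K j / e))

/-- The derivative of `Φ_j` in a direction in which `w`, `H (j+1)`, `K j` have the derivatives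
`w1`, `h1`, `k1`. -/
def PhJ1 (j : ℕ) (e w w1 : ℝ) (H K : ℕ → ℝ) (h1 k1 : ℝ) : ℝ :=
  Ph1 (cc j) (g0 j w (H (j + 1))) (g1 j w w1 (H (j + 1)) h1) (g0 (j + 1) w (K j / e))
    (g1 (j + 1) w w1 (K j / e) (k1 / e))

/-- The second space derivative of `Φ_j`. -/
def PhJ2 (j : ℕ) (e w w1 w2 : ℝ) (H K : ℕ → ℝ) : ℝ :=
  Ph2 (cc j) (g0 j w (H (j + 1))) (g1 j w w1 (H (j + 1)) (H (j + 2)))
    (g2 j w w1 w2 (H (j + 1)) (H (j + 2)) (H (j + 3))) (g0 (j + 1) w (K j / e))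
    (g1 (j + 1) w w1 (K j / e) (K (j + 1) / e))
    (g2 (j + 1) w w1 w2 (K j / e) (K (j + 1) / e) (K (j + 2) / e))

/-- The elementary bounds near the tip. -/
theorem near_elem {e ρ x k0 k1 P C : ℝ} (he : 0 < e) (hρ : 0 < ρ) (h0 : 0 ≤ x) (hx : x ≤ 2 * ρ)
    (heC : e * C ≤ 1 / 8) (hP : |P| ≤ 2) (a0 : |k0| * ρ ≤ e * C) (a1 : |k1| * ρ ^ 2 ≤ e * C) :
    |ρ * k0| ≤ 1 / 8 ∧ |ρ * (x * k1)| ≤ 1 / 4 ∧ |x * k0| ≤ 1 / 4 ∧ |x * (x * k1)| ≤ 1 / 2 ∧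
      e * x ^ 2 ≤ 2 * (ρ * (2 * e * x * (1 - x * k0))) ∧
      |2 * e * x * (1 - x * k0) * P| ≤ 5 * (e * x) ∧
      |2 * e * x * (1 - x * k0) * P / ρ| ≤ 10 * e ∧
      |2 * e * x * (1 - x * k0) * P ^ 2 / ρ| ≤ 20 * e := by
  have b0 : |ρ * k0| ≤ 1 / 8 := by rw [abs_mul, abs_of_pos hρ]; linarith
  have b1 : |ρ * (x * k1)| ≤ 1 / 4 := by
    rw [abs_mul, abs_mul, abs_of_pos hρ, abs_of_nonneg h0]
    have : x * (ρ * |k1|) ≤ 2 * ρ * (ρ * |k1|) := by gcongr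
    nlinarith
  have b2 : |x * k0| ≤ 1 / 4 := by
    rw [abs_mul, abs_of_nonneg h0]
    have : x * |k0| ≤ 2 * ρ * |k0| := by gcongr
    nlinarith
  have b3 : |x * (x * k1)| ≤ 1 / 2 := by
    rw [abs_mul, abs_of_nonneg h0]
    rw [abs_mul, abs_of_pos hρ] at b1
    have : x * |x * k1| ≤ 2 * ρ * |x * k1| := by gcongr
    nlinarith
  have hz := abs_le.1 b2
  have b5 : |2 * e * x * (1 - x * k0) * P| ≤ 5 * (e * x) := by
    have := ab_mul (ab_mul (ab_nn (a := 2 * e * x) (by positivity))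
      (show |1 - x * k0| ≤ 5 / 4 from abs_le.2 ⟨by linarith, by linarith⟩)) hP
    linarith
  have b6 : |2 * e * x * (1 - x * k0) * P / ρ| ≤ 10 * e := by
    rw [abs_div, abs_of_pos hρ, div_le_iff₀ hρ]
    have : e * x ≤ e * (2 * ρ) := by gcongr
    linarith
  refine ⟨b0, b1, b2, b3, ?_, b5, b6, ?_⟩
  · have h1 : e * x * x ≤ e * x * (2 * ρ) := by gcongr
    have h2 : ρ * (e * x) * (3 / 4) ≤ ρ * (e * x) * (1 - x * k0) := by gcongr; linarith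
    have h3 : 0 ≤ ρ * (e * x) := by positivity
    nlinarith
  · rw [show 2 * e * x * (1 - x * k0) * P ^ 2 / ρ = 2 * e * x * (1 - x * k0) * P / ρ * P by ring]
    have := ab_mul b6 hP
    linarith

/-- The weighted equation of `k`. -/
theorem veq (j : ℕ) {e ρ x P w2 wt Z β bV s k0 k1 k2 kt c u R A' A C : ℝ} (he : 0 < e)
    (hρ : 0 < ρ) (hP : |P| ≤ 2) (hw : wt = Z * w2 + β * P - Z * P ^ 2 / ρ - 1)
    (hk : kt = Z * k2 + bV * k1 + 4 * e * P / ρ ^ 2 * (c * u) + R)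
    (h1 : |ρ * (bV - s)| ≤ (j + 1) * (e * x)) (h2 : |β - bV| ≤ e * (4 * (j + 1)))
    (h3 : |R| * ρ ^ j ≤ (e * A' + e ^ 2 * A) / ρ ^ 2) (h4 : |Z * P| ≤ 5 * (e * x))
    (h5 : |Z * P ^ 2 / ρ| ≤ 20 * e) (hV : |g0 (j + 1) ρ (k0 / e)| ≤ C) :
    ∃ dV rV, ρ * g1 (j + 1) ρ wt (k0 / e) (kt / e) =
      ρ * Z * g2 (j + 1) ρ P w2 (k0 / e) (k1 / e) (k2 / e) +
        (ρ * s + dV) * g1 (j + 1) ρ P (k0 / e) (k1 / e) - (j + 1) * g0 (j + 1) ρ (k0 / e) +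
        4 * P * (c * g0 j ρ u) + rV ∧ |dV| ≤ e * (11 * (j + 1)) * x ∧
        |rV| ≤ A' + e * (A + C * (28 * (j + 1) ^ 2)) := by
  have hf := wt_form (j + 1) (f0 := k0 / e) (f1 := k1 / e) (f2 := k2 / e) (ft := kt / e) (b := bV)
    (r := 4 * P / ρ ^ 2 * (c * u) + R / e) hρ.ne' hw (by rw [hk]; field_simp; ring)
  have hj : (0 : ℝ) ≤ j + 1 := by positivity
  refine ⟨ρ * (bV - s) - 2 * (j + 1) * (Z * P), ρ ^ (j + 2) * (R / e) + g0 (j + 1) ρ (k0 / e) *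
    ((j + 1) * ((β - bV) * P) + (j + 1) * (j + 1) * (Z * P ^ 2 / ρ)), ?_, ?_, ?_⟩
  · rw [hf]
    simp only [g0]
    push_cast
    field_simp
    ring
  · have := ab_sub h1 (ab_mul (ab_nn (a := 2 * ((j : ℝ) + 1)) (by positivity)) h4)
    linarith
  · have a1 : |ρ ^ (j + 2) * (R / e)| ≤ A' + e * A := by
      rw [le_div_iff₀ (by positivity)] at h3
      rw [abs_mul, abs_div, abs_of_pos he, abs_of_pos (by positivity), ← mul_div_assoc,
        div_le_iff₀ he, pow_add]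
      linarith
    have a2 := ab_mul hV (ab_add (ab_mul (ab_nn hj) (ab_mul h2 hP))
      (ab_mul (ab_nn (mul_nonneg hj hj)) h5))
    have := ab_add a1 a2
    linarith

/-- The weighted equation of `η'`. -/
theorem ueq (j : ℕ) {e ρ x P w2 wt Z β bU s p0 p1 p2 pt k0 k1 g R A C : ℝ} (he : 0 < e)
    (he1 : e ≤ 1) (hρ : 0 < ρ) (h0 : 0 ≤ x) (hx : x ≤ 2 * ρ) (hP : |P| ≤ 2)
    (hw : wt = Z * w2 + β * P - Z * P ^ 2 / ρ - 1)
    (hk : pt = Z * p2 + bU * p1 + 2 * e * x * g * k1 + R)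
    (h1 : |ρ * (bU - s)| ≤ 12 * (j + 1) * (e * x)) (h2 : |β - bU| ≤ e * (24 * (j + 1)))
    (h3 : |R| * ρ ^ (j + 1) ≤ e * A) (h4 : |Z * P| ≤ 5 * (e * x))
    (h5 : |Z * P ^ 2 / ρ| ≤ 20 * e) (hg : |g| ≤ 10 + 2 * C) (hU : |g0 j ρ p0| ≤ C)
    (hV : |g0 (j + 1) ρ (k0 / e)| ≤ C) :
    ∃ dU gU rU, ρ * g1 j ρ wt p0 pt = ρ * Z * g2 j ρ P w2 p0 p1 p2 +
        (ρ * s + dU) * g1 j ρ P p0 p1 + gU * g1 (j + 1) ρ P (k0 / e) (k1 / e) - j * g0 j ρ p0 + rU ∧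
        |dU| ≤ e * (22 * (j + 1)) * x ∧ |gU| ≤ e * (20 + 4 * C) * x ∧
        |rU| ≤ e * (A + C * (68 * (j + 1) ^ 2) + 8 * (10 + 2 * C) * (j + 1) * C) := by
  have hf := wt_form j (f0 := p0) (f1 := p1) (f2 := p2) (ft := pt) (b := bU)
    (r := 2 * e * x * g * k1 + R) hρ.ne' hw (by rw [hk]; ring)
  have hj : (0 : ℝ) ≤ j := by positivity
  have hj1 : |(j : ℝ)| ≤ j + 1 := by rw [abs_of_nonneg hj]; linarith
  have hC : 0 ≤ C := (abs_nonneg _).trans hU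
  refine ⟨ρ * (bU - s) - 2 * j * (Z * P), e * (2 * e * x) * g, ρ ^ (j + 1) * R + g0 j ρ p0 *
    (j * ((β - bU) * P) + j * j * (Z * P ^ 2 / ρ)) -
    e * (2 * e * (x / ρ)) * g * (j + 1) * P * g0 (j + 1) ρ (k0 / e), ?_, ?_, ?_, ?_⟩
  · rw [hf]
    simp only [g0, g1]
    push_cast
    field_simp
    ring
  · have := ab_sub h1 (ab_mul (ab_mul (ab_nn (a := 2) (by norm_num)) hj1) h4)
    linarith
  · have a1 : |e * (2 * e * x)| ≤ 1 * (2 * e * x) := by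
      rw [abs_of_nonneg (by positivity)]; gcongr
    have := ab_mul a1 hg
    linarith
  · have a1 : |ρ ^ (j + 1) * R| ≤ e * A := by
      rw [abs_mul, abs_of_pos (by positivity)]; linarith
    have a2 := ab_mul hU (ab_add (ab_mul hj1 (ab_mul h2 hP)) (ab_mul (ab_mul hj1 hj1) h5))
    have a3 : |e * (2 * e * (x / ρ))| ≤ 1 * (2 * e * 2) := by
      rw [abs_of_nonneg (by positivity)]
      have : x / ρ ≤ 2 := by rw [div_le_iff₀ hρ]; linarith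
      gcongr
    have a4 := ab_mul (ab_mul (ab_mul (ab_mul a3 hg) (ab_nn (a := (j : ℝ) + 1) (by positivity))) hP) hV
    have := ab_sub (ab_add a1 a2) a4
    linarith

theorem g0_bd {j : ℕ} {ρ a C : ℝ} (hρ : 0 < ρ) (h : |a| * ρ ^ j ≤ C) : |g0 j ρ a| ≤ C := by
  rw [g0, abs_mul, abs_of_pos (by positivity), mul_comm]; exact h

theorem g0_bd' {j : ℕ} {ρ a C e : ℝ} (hρ : 0 < ρ) (he : 0 < e) (h : |a| * ρ ^ j ≤ e * C) :
    |g0 j ρ (a / e)| ≤ C := by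
  refine g0_bd hρ ?_
  rw [abs_div, abs_of_pos he, div_mul_eq_mul_div, div_le_iff₀ he]; linarith

/-- The pointwise inequality near the tip. -/
theorem near_pt (j : ℕ) (C' : ℝ) : ∃ A' : ℝ, ∀ C : ℝ, ∃ B : ℝ, 0 ≤ B ∧
    ∀ (e x : ℝ) (W H K Wt Kt U : ℕ → ℝ), 1 ≤ C' → 2 ≤ C → 0 < e → e * C ≤ 1 / 8 → 0 < W 0 →
      0 ≤ x → x ≤ 2 * W 0 → |W 1| ≤ 2 → (∀ i, W (i + 2) = H (i + 2)) →
      U 0 = (W 0)⁻¹ → (∀ i, 1 ≤ i → lmul W U i = 0) →
      Wt 0 = rhsW e x (W 0) (W 1) (W 2) (K 0) → Kt 0 = rhsK e x (W 0) (W 1) (K 0) (K 1) (K 2) →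
      (∀ n, Wt n = RW e x W K U n) → (∀ n, Kt n = RK e x W K U n) →
      (∀ i, i < j → |W (i + 1)| * W 0 ^ i ≤ C') →
      (∀ i, i ≤ max j 1 → |W (i + 1)| * W 0 ^ i ≤ C ∧ |K i| * W 0 ^ (i + 1) ≤ e * C) →
      W 0 * (PhJ1 j e (W 0) (Wt 0) H K (Wt (j + 1)) (Kt j) -
        2 * e * x * (1 - x * K 0) * PhJ2 j e (W 0) (W 1) (W 2) H K -
        (1 + 2 * e * (j + 2)) * PhJ1 j e (W 0) (W 1) H K (H (j + 2)) (K (j + 1))) ≤
        -PhJ j e (W 0) H K + A' ^ 2 / 64 + e * B := by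
  rcases Nat.eq_zero_or_pos j with rfl | hj
  · refine ⟨13, fun C => ⟨131 * ((2 * C ^ 2 + C * 28 + 11) ^ 2 * C ^ 2) +
      3 * |(2 * C ^ 2 + C * 28 + 11) * C|, by positivity, ?_⟩⟩
    intro e x W H K Wt Kt U hC' hC he heC hρ h0 hx hP hH hU hWU hW0 hK0 _ _ _ hb
    set ρ := W 0 with hρd
    have he1 : e ≤ 1 := by nlinarith
    have a0 := (hb 0 (by simp)).2
    have a1 := (hb 1 (by simp)).2
    rw [zero_add, pow_one] at a0
    obtain ⟨b0, b1, b2, b3, b4, b5, b6, b7⟩ := near_elem he hρ h0 hx heC hP a0 a1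
    have hV := g0_bd' (j := 0 + 1) hρ he (hb 0 (by simp)).2
    have hex : 0 ≤ e * x := by positivity
    have hz := abs_le.1 b2
    obtain ⟨dV, rV, q1, q2, q3⟩ := veq 0 (s := 1 + 2 * e * (0 + 2)) (c := 0) (u := H 1) (A' := 13)
      (A := 2 * C ^ 2) (w2 := W 2) (wt := Wt 0) (Z := 2 * e * x * (1 - x * K 0))
      (β := 1 + 2 * e * (1 - x * K 0)) (k0 := K 0) (k1 := K 1) (k2 := K 2) (kt := Kt 0)
      (bV := 4 * e * (1 - x * K 0) + e * x * (2 * K 0 + x * K 1) + 1)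
      (R := (1 + e) * K 0 ^ 2 + 2 * e * (1 - x * K 0) ^ 2 * W 1 ^ 2 / ρ ^ 2) he hρ hP
      (by rw [hW0, rhsW]; ring) (by rw [hK0, rhsK]; ring)
      (by
        rw [show ρ * (4 * e * (1 - x * K 0) + e * x * (2 * K 0 + x * K 1) + 1 - (1 + 2 * e * (0 + 2))) =
          e * x * (ρ * (x * K 1) - 2 * (ρ * K 0)) by ring]
        have := ab_mul (ab_nn hex) (ab_sub b1 (ab_mul (ab_nn (a := 2) (by norm_num)) b0))
        push_cast; linarith)
      (by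
        rw [show 1 + 2 * e * (1 - x * K 0) - (4 * e * (1 - x * K 0) + e * x * (2 * K 0 + x * K 1) + 1) =
          e * (-2 - x * (x * K 1)) by ring]
        have := ab_mul (ab_nn he.le) (ab_sub (show |(-2 : ℝ)| ≤ 2 by norm_num) b3)
        push_cast; linarith)
      (by
        rw [pow_zero, mul_one, le_div_iff₀ (by positivity), abs_of_nonneg (by positivity)]
        have c1 : (ρ * K 0) ^ 2 ≤ (e * C) ^ 2 := by
          rw [← sq_abs]; refine pow_le_pow_left₀ (abs_nonneg _) ?_ 2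
          rw [abs_mul, abs_of_pos hρ]; linarith
        have c2 : ((1 - x * K 0) * W 1) ^ 2 ≤ (5 / 4 * 2) ^ 2 := by
          rw [← sq_abs]
          exact pow_le_pow_left₀ (abs_nonneg _) (ab_mul (abs_le.2 ⟨by linarith, by linarith⟩) hP) 2
        have c3 : (1 + e) * (ρ * K 0) ^ 2 ≤ 2 * (e * C) ^ 2 := by gcongr; linarith
        have c4 := mul_le_mul_of_nonneg_left c2 he.le
        have c5 : ((1 + e) * K 0 ^ 2 + 2 * e * (1 - x * K 0) ^ 2 * W 1 ^ 2 / ρ ^ 2) * ρ ^ 2 =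
          (1 + e) * (ρ * K 0) ^ 2 + 2 * (e * ((1 - x * K 0) * W 1) ^ 2) := by field_simp
        rw [c5]; linarith) b5 b7 hV
    have hCC : 0 ≤ e * (C ^ 2) ∧ 0 ≤ e * C ∧ 0 ≤ e * x * C ^ 2 ∧ 0 ≤ e * x * C :=
      ⟨by positivity, by positivity, by positivity, by positivity⟩
    have := core_near (c := 0) (j := ((0 : ℕ) : ℝ)) (U := g0 0 ρ (H (0 + 1)))
      (U1 := g1 0 ρ (W 1) (H (0 + 1)) (H (0 + 2))) (Ut := g1 0 ρ (Wt 0) (H (0 + 1)) (Wt (0 + 1)))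
      (U2 := g2 0 ρ (W 1) (W 2) (H (0 + 1)) (H (0 + 2)) (H (0 + 3))) (dU := 0) (gU := 0) (rU := 0)
      (A := 2 * C ^ 2 + C * 28 + 11) (A' := 13) (C := C) he h0 b4 hP (by positivity)
      (by simp; linarith) hV (Or.inl ⟨rfl, by simp⟩) (by simp) q1 (by simp; positivity)
      (by simp; positivity) (by simp; positivity) (by push_cast at q2; linarith)
      (by push_cast at q3; linarith)
    rw [abs_of_pos (by positivity)]
    simpa only [PhJ, PhJ1, PhJ2, Ph, Ph1, Ph2, cc, if_true, Nat.cast_zero] using this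
  · obtain ⟨A', hA', hA⟩ := eqK_top j hj (max C' 1) (le_max_right _ _)
    refine ⟨A', fun C => ?_⟩
    obtain ⟨AK, hAK, hK⟩ := hA (max C 1) (le_max_right _ _)
    obtain ⟨AW, hAW, hW⟩ := eqW_top j hj (max C 1) (le_max_right _ _)
    set A : ℝ := AK + AW + |C| * (96 * (j + 1) ^ 2) + 8 * (10 + 2 * |C|) * (j + 1) * |C| +
      22 * (j + 1) + (20 + 4 * |C|) with hAd
    refine ⟨131 * (A ^ 2 * C ^ 2) + 3 * (A * |C|), by positivity, ?_⟩
    intro e x W H K Wt Kt U hC' hC he heC hρ h0 hx hP hH hU hWU hW0 _ hWt hKt hb' hb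
    rw [max_eq_left hC'] at hK
    rw [max_eq_left (show 1 ≤ C by linarith)] at hK hW
    rw [abs_of_pos (show 0 < C by linarith)] at hAd ⊢
    rw [max_eq_left hj] at hb
    set ρ := W 0 with hρd
    have he1 : e ≤ 1 := by nlinarith
    have a0 := (hb 0 (by simp)).2
    have a1 := (hb 1 hj).2
    have a2 := (hb 1 hj).1
    rw [zero_add, pow_one] at a0
    rw [pow_one] at a2
    obtain ⟨b0, b1, b2, b3, b4, b5, b6, b7⟩ := near_elem he hρ h0 hx heC hP a0 a1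
    have hV := g0_bd' hρ he (hb j le_rfl).2
    have hUb := g0_bd hρ (hb j le_rfl).1
    have hKb : ∀ i, i ≤ j → |K i| * ρ ^ i ≤ e * C / ρ := fun i hi => by
      rw [le_div_iff₀ hρ, mul_assoc, ← pow_succ]; exact (hb i hi).2
    have eK := hK e ρ x W K U he he1 hρ h0 hx rfl hU hWU hb' (fun i hi => (hb i hi).1) hKb
    have eW := hW e ρ x W K U he he1 hρ h0 hx rfl hU hWU (fun i hi => (hb i hi).1) hKb
    rw [← hKt, ZS_zero, ZS_one] at eK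
    rw [← hWt, ZS_zero, ZS_one] at eW
    have hex : 0 ≤ e * x := by positivity
    have hj0 : (0 : ℝ) ≤ j := by positivity
    have hj1 : (1 : ℝ) ≤ j := by exact_mod_cast hj
    have n2 : |(2 : ℝ)| ≤ 2 := by norm_num
    have hw : Wt 0 = 2 * e * x * (1 - x * K 0) * W 2 + (1 + 2 * e * (1 - x * K 0)) * W 1 -
        2 * e * x * (1 - x * K 0) * W 1 ^ 2 / ρ - 1 := by rw [hW0, rhsW]; ring
    have d1 := ab_add (ab_mul n2 b0) b1
    have d2 := ab_add (ab_mul n2 b2) b3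
    have p1 : 0 ≤ j * (e * x) := by positivity
    have p2 : 0 ≤ j * e := by positivity
    obtain ⟨dV, rV, q1, q2, q3⟩ := veq j (s := 1 + 2 * e * (j + 2)) (c := 1) (u := W (j + 1))
      (k0 := K j) (k1 := K (j + 1)) (k2 := K (j + 2)) (kt := Kt j) he hρ hP hw
      (bV := j * (2 * e * (1 - 2 * (x * K 0) - x ^ 2 * K 1)) + 4 * e * (1 - x * K 0) +
        2 * e * x * (K 0 + x * K 1) + 1) (by rw [one_mul, add_sub_cancel])
      (by
        rw [show ρ * (j * (2 * e * (1 - 2 * (x * K 0) - x ^ 2 * K 1)) + 4 * e * (1 - x * K 0) +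
          2 * e * x * (K 0 + x * K 1) + 1 - (1 + 2 * e * (j + 2))) = e * x * (2 * (ρ * (x * K 1) - ρ * K 0) -
            2 * j * (2 * (ρ * K 0) + ρ * (x * K 1))) by ring]
        have := ab_mul (ab_nn hex) (ab_sub (ab_mul n2 (ab_sub b1 b0))
          (ab_mul (ab_mul n2 (ab_nn hj0)) d1))
        linarith)
      (by
        rw [show 1 + 2 * e * (1 - x * K 0) - (j * (2 * e * (1 - 2 * (x * K 0) - x ^ 2 * K 1)) +
          4 * e * (1 - x * K 0) + 2 * e * x * (K 0 + x * K 1) + 1) = e * (2 * j * (2 * (x * K 0) +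
            x * (x * K 1)) - 2 * j - 2 - 2 * (x * (x * K 1))) by ring]
        have := ab_mul (ab_nn he.le) (ab_sub (ab_sub (ab_sub (ab_mul (ab_mul n2 (ab_nn hj0)) d2)
          (ab_mul n2 (ab_nn hj0))) n2) (ab_mul n2 b3))
        linarith) eK b5 b7 hV
    obtain ⟨dU, gU, rU, r1, r2, r3, r4⟩ := ueq j (s := 1 + 2 * e * (j + 2)) (p0 := W (j + 1))
      (p1 := W (j + 2)) (p2 := W (j + 3)) (pt := Wt (j + 1)) (k0 := K j) (k1 := K (j + 1))
      (g := x * W 1 ^ 2 / ρ - x * W 2 - W 1) he he1 hρ h0 hx hP hw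
      (bU := (j + 1) * (2 * e * (1 - 2 * (x * K 0) - x ^ 2 * K 1)) + 1 + 2 * e * (1 - x * K 0) -
        2 * (2 * e * x * (1 - x * K 0)) * W 1 / ρ) (by rw [add_sub_cancel])
      (by
        rw [show ρ * ((j + 1) * (2 * e * (1 - 2 * (x * K 0) - x ^ 2 * K 1)) + 1 +
          2 * e * (1 - x * K 0) - 2 * (2 * e * x * (1 - x * K 0)) * W 1 / ρ - (1 + 2 * e * (j + 2))) =
          -(e * x * (2 * (j + 1) * (2 * (ρ * K 0) + ρ * (x * K 1)) + 2 * (ρ * K 0)) +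
            2 * (2 * e * x * (1 - x * K 0) * W 1)) by field_simp; ring, abs_neg]
        have := ab_add (ab_mul (ab_nn hex) (ab_add (ab_mul (ab_mul n2
          (ab_nn (show (0 : ℝ) ≤ j + 1 by positivity))) d1) (ab_mul n2 b0))) (ab_mul n2 b5)
        linarith)
      (by
        rw [show 1 + 2 * e * (1 - x * K 0) - ((j + 1) * (2 * e * (1 - 2 * (x * K 0) - x ^ 2 * K 1)) +
          1 + 2 * e * (1 - x * K 0) - 2 * (2 * e * x * (1 - x * K 0)) * W 1 / ρ) =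
          2 * (2 * e * x * (1 - x * K 0) * W 1 / ρ) - e * (2 * (j + 1) *
            (1 - (2 * (x * K 0) + x * (x * K 1)))) by ring]
        have := ab_sub (ab_mul n2 b6) (ab_mul (ab_nn he.le) (ab_mul (ab_mul n2
          (ab_nn (show (0 : ℝ) ≤ j + 1 by positivity))) (ab_sub abs_one.le d2)))
        linarith) eW b5 b7
      (by
        have c1 : |x * W 1 ^ 2 / ρ| ≤ 2 * (2 * 2) := by
          rw [show x * W 1 ^ 2 / ρ = x / ρ * (W 1 * W 1) by ring]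
          refine ab_mul ?_ (ab_mul hP hP)
          rw [abs_of_nonneg (by positivity), div_le_iff₀ hρ]; exact hx
        have c2 : |x * W 2| ≤ 2 * C := by
          have := ab_mul (show |x| ≤ 2 * ρ by rwa [abs_of_nonneg h0]) (le_refl |W 2|)
          linarith
        linarith [ab_sub (ab_sub c1 c2) hP]) hUb hV
    have hC0 : 0 ≤ C := by linarith
    have t1 : 0 ≤ C * (j + 1) ^ 2 := by positivity
    have t2 : 0 ≤ (10 + 2 * C) * (j + 1) * C := by positivity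
    have u1 : ∀ y : ℝ, y ≤ A → e * y * x ≤ e * A * x := fun y hy => by gcongr
    have u2 : ∀ y : ℝ, y ≤ A → e * y ≤ e * A := fun y hy => by gcongr
    have := core_near (c := 1) (A := A) (A' := A') (C := C) he h0 b4 hP (by positivity)
      (by rwa [one_mul]) hV (Or.inr ⟨rfl, hj1⟩) (congrArg (1 * ·) r1) q1
      (r2.trans (u1 _ (by linarith))) (r3.trans (u1 _ (by linarith)))
      (r4.trans (u2 _ (by linarith))) (q2.trans (u1 _ (by linarith)))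
      (q3.trans (add_le_add_right (u2 _ (by linarith)) _))
    obtain ⟨i, rfl⟩ : ∃ i, j = i + 1 := ⟨j - 1, by omega⟩
    simp only [PhJ, PhJ1, PhJ2, Ph, Ph1, Ph2, cc, Nat.succ_ne_zero, if_false, ← hH i,
      ← hH (i + 1), ← hH (i + 2)]
    exact this

/-- Weighting an equation away from the tip. -/
theorem far_w (a : ℕ) {N L w w1 w2 wt f f1 f2 ft Z s μ r : ℝ} (hN : 1 ≤ N) (hw : 0 < w)
    (hi : w⁻¹ ≤ N) (hL : w ^ a ≤ L) (hL' : w⁻¹ ^ a ≤ L) (ha : (a : ℝ) ≤ N) (h1 : |w1| ≤ N)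
    (h2 : |w2| ≤ N) (ht : |wt| ≤ N) (hs : |s| ≤ N) (hZ0 : 0 ≤ Z) (hZ : Z ≤ N * μ) (hμ : μ ≤ 1)
    (hf : |f| ≤ N) (he : ft = Z * f2 + s * f1 + r) :
    |g0 a w f| ≤ L * N ∧ |f1| ≤ L * |g1 a w w1 f f1| + N ^ 4 ∧
    ∃ R, g1 a w wt f ft = Z * g2 a w w1 w2 f f1 f2 + s * g1 a w w1 f f1 + R ∧
      |R| ≤ L * |r| + 7 * (L * N ^ 8) + 2 * N ^ 4 * (μ * |g1 a w w1 f f1|) := by
  have a1 : |w ^ a| ≤ L := by rwa [abs_of_pos (by positivity)]
  have a2 : |w⁻¹ ^ a| ≤ L := by rwa [abs_of_pos (by positivity)]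
  have a3 : |w⁻¹| ≤ N := by rwa [abs_of_pos (by positivity)]
  have a4 : |(a : ℝ)| ≤ N := by rwa [abs_of_nonneg (by positivity)]
  have a5 : |(a : ℝ) + 1| ≤ 2 * N := by rw [abs_of_nonneg (by positivity)]; linarith
  have a6 : |Z| ≤ N * μ := by rwa [abs_of_nonneg hZ0]
  have a7 : |Z| ≤ N := a6.trans (by nlinarith)
  have hL0 : 0 ≤ L := (abs_nonneg _).trans a1
  refine ⟨ab_mul a1 hf, ?_, w ^ a * r + a * w ^ a * w⁻¹ * (wt - s * w1 - Z * w2) * f -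
    2 * (a * w⁻¹ * w1 * Z * g1 a w w1 f f1) +
    a * (a + 1) * w ^ a * (w1 * w1) * (w⁻¹ * w⁻¹) * Z * f, ?_, ?_⟩
  · have e1 : f1 = w⁻¹ ^ a * g1 a w w1 f f1 - a * w1 * w⁻¹ * f := by
      unfold g1; rw [inv_pow]; field_simp; ring
    have := ab_sub (ab_mul a2 (le_refl |g1 a w w1 f f1|)) (ab_mul (ab_mul (ab_mul a4 h1) a3) hf)
    rw [← e1] at this
    linarith
  · rw [he]; unfold g1 g2; field_simp; ring
  · have b1 := ab_mul (ab_mul (ab_mul (ab_mul a4 a1) a3)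
      (ab_sub (ab_sub ht (ab_mul hs h1)) (ab_mul a7 h2))) hf
    have b2 := ab_mul (show |(2 : ℝ)| ≤ 2 by norm_num)
      (ab_mul (ab_mul (ab_mul (ab_mul a4 a3) h1) a6) (le_refl |g1 a w w1 f f1|))
    have b3 := ab_mul (ab_mul (ab_mul (ab_mul (ab_mul (ab_mul a4 a5) a1) (ab_mul h1 h1))
      (ab_mul a3 a3)) a7) hf
    have b4 := ab_add (ab_sub (ab_add (ab_mul a1 (le_refl |r|)) b1) b2) b3
    have c1 : L * N ^ 4 ≤ L * N ^ 8 := by gcongr; norm_num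
    have c2 : L * N ^ 5 ≤ L * N ^ 8 := by gcongr; norm_num
    have c3 : 0 ≤ L * N ^ 8 := by positivity
    linarith

/-- The pointwise inequality away from the tip. -/
theorem far_pt (j : ℕ) (N : ℝ) (hN : 1 ≤ N) (hj : (j : ℝ) + 1 ≤ N) : ∃ Λ : ℝ, 0 ≤ Λ ∧
    ∀ (e w w1 w2 wt Z s μ ht kt : ℝ) (H K : ℕ → ℝ), 0 < e → e ≤ 1 → e⁻¹ ≤ N → 0 < w → w ≤ N →
      w⁻¹ ≤ N → |w1| ≤ N → |w2| ≤ N → |wt| ≤ N → |s| ≤ N → 0 ≤ μ → μ ≤ 1 → μ ≤ N * Z →
      Z ≤ N * μ → |H (j + 1)| ≤ N → |H 2| ≤ N → |K j / e| ≤ N →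
      |ht - Z * H (j + 3) - s * H (j + 2)| ≤ N * (1 + μ * (|H (j + 1)| + |H (j + 2)| + |K (j + 1)|)) →
      |kt - Z * K (j + 2) - s * K (j + 1)| ≤ N * (1 + μ * (|H (j + 1)| + |H (j + 2)| + |K (j + 1)|)) →
      PhJ1 j e w wt H K ht kt - Z * PhJ2 j e w w1 w2 H K -
        s * PhJ1 j e w w1 H K (H (j + 2)) (K (j + 1)) ≤ Λ := by
  set L : ℝ := N ^ (j + 1) with hLd
  have hL : 1 ≤ L := one_le_pow₀ hN
  set K0 : ℝ := L * N ^ 2 * (1 + N + 2 * N ^ 4) + 7 * (L * N ^ 8) + L * L * N ^ 2 + 2 * N ^ 4 + L * N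
    with hK0
  refine ⟨3 * K0 ^ 2 + K0 ^ 3 + 100 * K0 ^ 5, by positivity, ?_⟩
  intro e w w1 w2 wt Z s μ ht kt H K he he1 hei hw hwN hi h1 h2 h3 hs hμ0 hμ1 hZ1 hZ2 hH hH2 hK rH rK
  have hZ0 : 0 ≤ Z := by
    by_contra hc
    have : N * Z < 0 := mul_neg_of_pos_of_neg (by linarith) (not_le.1 hc)
    linarith
  have pw : ∀ y : ℝ, 0 ≤ y → y ≤ N → y ^ j ≤ L ∧ y ^ (j + 1) ≤ L := fun y a b =>
    ⟨(pow_le_pow_left₀ a b j).trans (pow_le_pow_right₀ hN (by omega)), pow_le_pow_left₀ a b _⟩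
  obtain ⟨u0, u1, rU, eU, bU⟩ := far_w j (f := H (j + 1)) (f1 := H (j + 2)) (f2 := H (j + 3))
    (ft := ht) (r := ht - Z * H (j + 3) - s * H (j + 2)) hN hw hi (pw w hw.le hwN).1
    (pw _ (by positivity) hi).1 (by linarith) h1 h2 h3 hs hZ0 hZ2 hμ1 hH (by ring)
  obtain ⟨v0, v1, rV, eV, bV⟩ := far_w (j + 1) (f := K j / e) (f1 := K (j + 1) / e)
    (f2 := K (j + 2) / e) (ft := kt / e) (r := e⁻¹ * (kt - Z * K (j + 2) - s * K (j + 1))) hN hw hi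
    (pw w hw.le hwN).2 (pw _ (by positivity) hi).2 (by push_cast; linarith) h1 h2 h3 hs hZ0 hZ2 hμ1 hK
    (by field_simp; ring)
  set U1 := g1 j w w1 (H (j + 1)) (H (j + 2)) with hU1
  set V1 := g1 (j + 1) w w1 (K j / e) (K (j + 1) / e) with hV1
  have v2 : |K (j + 1)| ≤ L * |V1| + N ^ 4 := by
    refine le_trans ?_ v1
    rw [abs_div, abs_of_pos he, le_div_iff₀ he]
    exact mul_le_of_le_one_right (abs_nonneg _) he1
  have y0 : 0 ≤ μ * |U1| := by positivity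
  have y1 : 0 ≤ μ * |V1| := by positivity
  have c1 : 1 + μ * (|H (j + 1)| + |H (j + 2)| + |K (j + 1)|) ≤
      (1 + N + 2 * N ^ 4) + L * (μ * |U1| + μ * |V1|) := by
    have d1 : μ * (|H (j + 1)| + |H (j + 2)| + |K (j + 1)|) ≤
        μ * (N + (L * |U1| + N ^ 4) + (L * |V1| + N ^ 4)) := by gcongr
    have d2 : μ * (N + 2 * N ^ 4) ≤ 1 * (N + 2 * N ^ 4) := by gcongr
    linarith
  set Y := (1 + N + 2 * N ^ 4) + L * (μ * |U1| + μ * |V1|) with hY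
  have hY0 : 0 ≤ Y := by positivity
  have c2 : L * |ht - Z * H (j + 3) - s * H (j + 2)| ≤ L * (N * (N * Y)) := by
    have d1 : N * (1 + μ * (|H (j + 1)| + |H (j + 2)| + |K (j + 1)|)) ≤ N * Y := by gcongr
    have d2 : N * Y ≤ N * (N * Y) := le_mul_of_one_le_left (by positivity) hN
    gcongr; linarith
  have c3 : L * |e⁻¹ * (kt - Z * K (j + 2) - s * K (j + 1))| ≤ L * (N * (N * Y)) := by
    have d1 : N * (1 + μ * (|H (j + 1)| + |H (j + 2)| + |K (j + 1)|)) ≤ N * Y := by gcongr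
    have := ab_mul (show |e⁻¹| ≤ N by rwa [abs_of_pos (by positivity)]) (rK.trans d1)
    gcongr
  have k1 : L * N ^ 2 * (1 + N + 2 * N ^ 4) + 7 * (L * N ^ 8) ≤ K0 := by
    have : 0 ≤ L * L * N ^ 2 + 2 * N ^ 4 + L * N := by positivity
    linarith
  have k2 : L * L * N ^ 2 + 2 * N ^ 4 ≤ K0 := by
    have : 0 ≤ L * N ^ 2 * (1 + N + 2 * N ^ 4) + 7 * (L * N ^ 8) + L * N := by positivity
    linarith
  have k3 : L * N ≤ K0 := by
    have : 0 ≤ L * N ^ 2 * (1 + N + 2 * N ^ 4) + 7 * (L * N ^ 8) + L * L * N ^ 2 + 2 * N ^ 4 := by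
      positivity
    linarith
  have k4 : N ≤ K0 := le_trans (le_mul_of_one_le_left (by linarith) hL) k3
  have k5 := mul_le_mul_of_nonneg_right k2 y0
  have k6 := mul_le_mul_of_nonneg_right k2 y1
  have k7 : 0 ≤ N ^ 4 * (μ * |U1|) := by positivity
  have k8 : 0 ≤ N ^ 4 * (μ * |V1|) := by positivity
  refine core_far (K := K0) (μ := μ) (by linarith) hμ0 hμ1 (hZ1.trans (by gcongr)) (u0.trans k3)
    (v0.trans k3) ?_ eU eV (by linarith) (by linarith)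
  rcases Nat.eq_zero_or_pos j with rfl | hj0
  · refine Or.inl ⟨rfl, le_trans ?_ k4⟩
    simpa [hU1, g1] using hH2
  · exact Or.inr (if_neg hj0.ne')

end

end Crest.Agent.N207.S.Rg
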